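import Mathlib

/-! P141: from an integer configuration to Schwartz inputs of the trilinear Hilbert transform. -/

namespace Vale.P141

open MeasureTheory Filter Topology Set

open scoped SchwartzMap ContDiff ENNReal

noncomputable def bumpAt (a : ℤ) : ContDiffBump (a : ℝ) := ⟨1 / 8, 1 / 4, by norm_num, by norm_num⟩

noncomputable def bumpSum (A : Finset ℤ) (y : ℝ) : ℝ := ∑ a ∈ A, bumpAt a y

lemma bumpSum_nonneg (A : Finset ℤ) (y : ℝ) : 0 ≤ bumpSum A y :=
  Finset.sum_nonneg fun a _ => (bumpAt a).nonneg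

lemma bumpSum_eq_zero {A : Finset ℤ} {y : ℝ} (h : ∀ a ∈ A, 1 / 4 ≤ |y - (a : ℝ)|) :
    bumpSum A y = 0 :=
  Finset.sum_eq_zero fun a ha => (bumpAt a).zero_of_le_dist (h a ha)

lemma bumpSum_le_one (A : Finset ℤ) (y : ℝ) : bumpSum A y ≤ 1 := by
  by_cases h : ∃ a ∈ A, |y - (a : ℝ)| < 1 / 4
  · obtain ⟨a, ha, hay⟩ := h
    rw [bumpSum, Finset.sum_eq_single_of_mem a ha]
    · exact (bumpAt a).le_one
    · intro b _ hba
      apply (bumpAt b).zero_of_le_dist
      show 1 / 4 ≤ |y - (b : ℝ)|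
      have h1 : (1 : ℝ) ≤ |(b : ℝ) - a| := by exact_mod_cast Int.one_le_abs (sub_ne_zero.mpr hba)
      have h2 := abs_sub_le (b : ℝ) y a
      rw [abs_sub_comm (b : ℝ) y] at h2
      linarith
  · push Not at h
    rw [bumpSum_eq_zero h]; norm_num

lemma bumpSum_eq_one {A : Finset ℤ} {a : ℤ} {y : ℝ} (ha : a ∈ A) (h : |y - (a : ℝ)| ≤ 1 / 8) :
    bumpSum A y = 1 := by
  refine le_antisymm (bumpSum_le_one A y) ?_
  calc (1 : ℝ) = bumpAt a y := ((bumpAt a).one_of_mem_closedBall h).symm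
    _ ≤ bumpSum A y := Finset.single_le_sum (f := fun b => bumpAt b y)
        (fun b _ => (bumpAt b).nonneg) ha

lemma contDiff_bumpSum (A : Finset ℤ) : ContDiff ℝ ∞ (bumpSum A) :=
  ContDiff.sum fun a _ => (bumpAt a).contDiff

lemma bumpSum_bound {A : Finset ℤ} {M : ℕ} (hA : A ⊆ Finset.Icc (-3 * (M : ℤ)) M) {y : ℝ}
    (hy : y < -3 * (M : ℝ) - 1 ∨ (M : ℝ) + 1 < y) : bumpSum A y = 0 := by
  refine bumpSum_eq_zero fun a ha => ?_
  have h := Finset.mem_Icc.mp (hA ha)
  have h1 : (-3 * (M : ℝ)) ≤ a := by exact_mod_cast h.1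
  have h2 : (a : ℝ) ≤ M := by exact_mod_cast h.2
  rw [le_abs]
  rcases hy with hy | hy
  · exact Or.inr (by linarith)
  · exact Or.inl (by linarith)

/-- Modulated inputs. -/
noncomputable def inputFun (A : Finset ℤ) (c : ℝ) (y : ℝ) : ℂ :=
  Complex.exp ((c * y : ℝ) * Complex.I) * (bumpSum A y : ℂ)

lemma contDiff_inputFun (A : Finset ℤ) (c : ℝ) : ContDiff ℝ ∞ (inputFun A c) := by
  unfold inputFun
  exact (((Complex.ofRealCLM.contDiff.comp (contDiff_const.mul contDiff_id)).mul
    contDiff_const).cexp).mul (Complex.ofRealCLM.contDiff.comp (contDiff_bumpSum A))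

lemma norm_inputFun (A : Finset ℤ) (c y : ℝ) : ‖inputFun A c y‖ = bumpSum A y := by
  rw [inputFun, norm_mul, Complex.norm_exp_ofReal_mul_I, one_mul, Complex.norm_real,
    Real.norm_eq_abs, abs_of_nonneg (bumpSum_nonneg A y)]

lemma hasCompactSupport_inputFun {A : Finset ℤ} {M : ℕ}
    (hA : A ⊆ Finset.Icc (-3 * (M : ℤ)) M) (c : ℝ) : HasCompactSupport (inputFun A c) := by
  refine HasCompactSupport.intro (isCompact_Icc (a := -3 * (M : ℝ) - 1) (b := (M : ℝ) + 1)) ?_
  intro y hy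
  have : bumpSum A y = 0 := bumpSum_bound hA (by
    by_contra h; push Not at h; exact hy ⟨h.1, h.2⟩)
  simp [inputFun, this]

lemma eLpNorm_inputFun_le (A : Finset ℤ) (c : ℝ) (p : ℝ≥0∞) {n : ℝ} (hn : (A.card : ℝ) ≤ n) :
    eLpNorm (inputFun A c) p volume ≤ ENNReal.ofReal (n ^ p⁻¹.toReal) := by
  set S : Set ℝ := ⋃ a ∈ A, Icc ((a : ℝ) - 1 / 4) ((a : ℝ) + 1 / 4) with hS
  have hle : ∀ y, ‖inputFun A c y‖ ≤ S.indicator (fun _ => (1 : ℝ)) y := by
    intro y
    rw [norm_inputFun]
    by_cases hy : y ∈ S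
    · rw [indicator_of_mem hy]; exact bumpSum_le_one A y
    · rw [indicator_of_notMem hy]
      refine le_of_eq (bumpSum_eq_zero fun a ha => ?_)
      by_contra h
      rw [not_le, abs_lt] at h
      exact hy (mem_iUnion₂.mpr ⟨a, ha, by linarith [h.1], by linarith [h.2]⟩)
  have hμ : volume S ≤ ENNReal.ofReal n := by
    calc volume S ≤ ∑ a ∈ A, volume (Icc ((a : ℝ) - 1 / 4) ((a : ℝ) + 1 / 4)) :=
          measure_biUnion_finset_le _ _
      _ ≤ ∑ _a ∈ A, (1 : ℝ≥0∞) := by
          apply Finset.sum_le_sum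
          intro a _
          rw [Real.volume_Icc]
          exact ENNReal.ofReal_le_one.mpr (by linarith)
      _ = (A.card : ℝ≥0∞) := by simp
      _ = ENNReal.ofReal (A.card : ℝ) := (ENNReal.ofReal_natCast _).symm
      _ ≤ _ := ENNReal.ofReal_le_ofReal hn
  have hn0 : 0 ≤ n := le_trans (Nat.cast_nonneg _) hn
  calc eLpNorm (inputFun A c) p volume ≤ eLpNorm (S.indicator fun _ => (1 : ℝ)) p volume :=
        eLpNorm_mono_real hle
    _ ≤ ‖(1 : ℝ)‖ₑ * volume S ^ (1 / p.toReal) := eLpNorm_indicator_const_le _ _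
    _ ≤ ENNReal.ofReal n ^ (1 / p.toReal) := by
        rw [enorm_one, one_mul]
        exact ENNReal.rpow_le_rpow hμ (by positivity)
    _ = _ := by
        rw [ENNReal.ofReal_rpow_of_nonneg hn0 (by positivity), one_div, ENNReal.toReal_inv]

/-- The positive profile along the line `y - t, y - 2t, y - 3t`. -/
noncomputable def profile (A : Fin 3 → Finset ℤ) (y t : ℝ) : ℝ :=
  bumpSum (A 0) (y - t) * bumpSum (A 1) (y - 2 * t) * bumpSum (A 2) (y - 3 * t)

lemma profile_nonneg (A : Fin 3 → Finset ℤ) (y t : ℝ) : 0 ≤ profile A y t :=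
  mul_nonneg (mul_nonneg (bumpSum_nonneg _ _) (bumpSum_nonneg _ _)) (bumpSum_nonneg _ _)

lemma profile_eq_zero {A : Fin 3 → Finset ℤ} {M : ℕ}
    (hA : ∀ j, A j ⊆ Finset.Icc (-3 * (M : ℤ)) M) {y t : ℝ} (ht : 4 * (M : ℝ) + 2 < |t|) :
    profile A y t = 0 := by
  by_cases h0 : (y - t < -3 * (M : ℝ) - 1 ∨ (M : ℝ) + 1 < y - t)
  · simp [profile, bumpSum_bound (hA 0) h0]
  · have h1 : (y - 2 * t < -3 * (M : ℝ) - 1 ∨ (M : ℝ) + 1 < y - 2 * t) := by
      push Not at h0
      rcases lt_abs.mp ht with h | h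
      · exact Or.inl (by linarith)
      · exact Or.inr (by linarith)
    simp [profile, bumpSum_bound (hA 1) h1]

/-- The integrand on a line for modulation frequency `ξ`. -/
noncomputable def line (A : Fin 3 → Finset ℤ) (ξ y t : ℝ) : ℂ :=
  Complex.exp ((ξ * t : ℝ) * Complex.I) * (profile A y t : ℂ)

lemma product_eq_line (A : Fin 3 → Finset ℤ) (ξ y t : ℝ) :
    inputFun (A 0) ξ (y - t) * inputFun (A 1) (-ξ) (y - 2 * t) * inputFun (A 2) 0 (y - 3 * t)
      = line A ξ y t := by
  have e : Complex.exp ((ξ * t : ℝ) * Complex.I)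
      = Complex.exp ((ξ * (y - t) : ℝ) * Complex.I)
        * Complex.exp ((-ξ * (y - 2 * t) : ℝ) * Complex.I)
        * Complex.exp ((0 * (y - 3 * t) : ℝ) * Complex.I) := by
    rw [← Complex.exp_add, ← Complex.exp_add]
    congr 1
    push_cast
    ring
  simp only [line, inputFun, profile, e]
  push_cast
  ring

lemma contDiff_line (A : Fin 3 → Finset ℤ) (ξ y : ℝ) : ContDiff ℝ ∞ (line A ξ y) := by
  have : line A ξ y = fun t => inputFun (A 0) ξ (y - t) * inputFun (A 1) (-ξ) (y - 2 * t)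
      * inputFun (A 2) 0 (y - 3 * t) := funext fun t => (product_eq_line A ξ y t).symm
  rw [this]
  exact (((contDiff_inputFun _ _).comp (contDiff_const.sub contDiff_id)).mul
    ((contDiff_inputFun _ _).comp (contDiff_const.sub (contDiff_const.mul contDiff_id)))).mul
    ((contDiff_inputFun _ _).comp (contDiff_const.sub (contDiff_const.mul contDiff_id)))

lemma line_eq_zero {A : Fin 3 → Finset ℤ} {M : ℕ}
    (hA : ∀ j, A j ⊆ Finset.Icc (-3 * (M : ℤ)) M) {ξ y t : ℝ} (ht : 4 * (M : ℝ) + 2 < |t|) :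
    line A ξ y t = 0 := by simp [line, profile_eq_zero hA ht]

/-- Symmetrised kernel on `t > 0`. -/
noncomputable def folded (A : Fin 3 → Finset ℤ) (ξ y t : ℝ) : ℂ :=
  line A ξ y t / (t : ℂ) + line A ξ y (-t) / ((-t : ℝ) : ℂ)

noncomputable def pv (A : Fin 3 → Finset ℤ) (ξ y : ℝ) : ℂ :=
  ∫ t in Ioi 0, folded A ξ y t

lemma stronglyMeasurable_pv (A : Fin 3 → Finset ℤ) (ξ : ℝ) : StronglyMeasurable (pv A ξ) := by
  apply StronglyMeasurable.integral_prod_right
  apply Measurable.stronglyMeasurable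
  have hb : ∀ j, Measurable (bumpSum (A j)) := fun j => (contDiff_bumpSum _).continuous.measurable
  have h0 := hb 0; have h1 := hb 1; have h2 := hb 2
  simp only [Function.uncurry_def, folded, line, profile]
  fun_prop

lemma integrableOn_folded {A : Fin 3 → Finset ℤ} {M : ℕ}
    (hA : ∀ j, A j ⊆ Finset.Icc (-3 * (M : ℤ)) M) (ξ y : ℝ) :
    IntegrableOn (folded A ξ y) (Ioi 0) := by
  have hc : HasCompactSupport (line A ξ y) := by
    refine HasCompactSupport.intro
      (isCompact_Icc (a := -(4 * (M : ℝ) + 2)) (b := 4 * (M : ℝ) + 2)) fun t ht => ?_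
    refine line_eq_zero hA ?_
    by_contra h
    exact ht (abs_le.mp (not_lt.mp h))
  obtain ⟨K, hK⟩ := (contDiff_line A ξ y).lipschitzWith_of_hasCompactSupport hc (by simp)
  set R0 : ℝ := 4 * (M : ℝ) + 2 with hR0
  have hb : Integrable ((Ioc (0 : ℝ) R0).indicator fun _ => 2 * (K : ℝ))
      (volume.restrict (Ioi 0)) := by
    apply Integrable.restrict
    exact (integrableOn_const (by simp)).integrable_indicator measurableSet_Ioc
  have hmeas : Measurable (folded A ξ y) := by
    have h := (contDiff_line A ξ y).continuous.measurable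
    unfold folded
    fun_prop
  refine hb.mono' hmeas.aestronglyMeasurable ?_
  refine (ae_restrict_mem measurableSet_Ioi).mono fun t ht => ?_
  have ht0 : (0 : ℝ) < t := ht
  by_cases h : t ≤ R0
  · rw [indicator_of_mem (show t ∈ Ioc 0 R0 from ⟨ht0, h⟩)]
    have e : folded A ξ y t = (line A ξ y t - line A ξ y (-t)) / (t : ℂ) := by
      rw [folded, Complex.ofReal_neg, div_neg, sub_div, sub_eq_add_neg]
    rw [e, norm_div, Complex.norm_real, Real.norm_eq_abs, abs_of_pos ht0, div_le_iff₀ ht0]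
    have := hK.dist_le_mul t (-t)
    rw [dist_eq_norm, Real.dist_eq, sub_neg_eq_add, abs_of_pos (by linarith)] at this
    linarith
  · push Not at h
    rw [indicator_of_notMem (fun hm => absurd hm.2 (not_le.mpr h))]
    have h1 : line A ξ y t = 0 := line_eq_zero hA (by rw [abs_of_pos ht0]; exact h)
    have h2 : line A ξ y (-t) = 0 := line_eq_zero hA (by rw [abs_neg, abs_of_pos ht0]; exact h)
    simp [folded, h1, h2]

lemma truncation_eq (A : Fin 3 → Finset ℤ) (ξ y : ℝ) {ε R : ℝ} (hε : 0 < ε) :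
    (∫ t in {t : ℝ | ε < |t| ∧ |t| < R}, line A ξ y t / (t : ℂ))
      = ∫ t in Ioo ε R, folded A ξ y t := by
  have hset : {t : ℝ | ε < |t| ∧ |t| < R} = Ioo ε R ∪ Ioo (-R) (-ε) := by
    ext t
    simp only [mem_setOf_eq, mem_union, mem_Ioo, lt_abs, abs_lt]
    constructor
    · rintro ⟨h | h, h2⟩
      · exact Or.inl ⟨h, h2.2⟩
      · exact Or.inr ⟨h2.1, by linarith⟩
    · rintro (⟨h1, h2⟩ | ⟨h1, h2⟩)
      · exact ⟨Or.inl h1, by linarith, h2⟩
      · exact ⟨Or.inr (by linarith), h1, by linarith⟩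
  have hcont : Continuous (line A ξ y) := (contDiff_line A ξ y).continuous
  have hint : ∀ a b : ℝ, (∀ t ∈ Icc a b, t ≠ 0) →
      IntegrableOn (fun t : ℝ => line A ξ y t / (t : ℂ)) (Ioo a b) := fun a b hab =>
    ((hcont.continuousOn.div Complex.continuous_ofReal.continuousOn
      (fun t ht => by exact_mod_cast hab t ht)).integrableOn_Icc).mono_set Ioo_subset_Icc_self
  have i1 := hint ε R fun t ht => (lt_of_lt_of_le hε ht.1).ne'
  have i2 := hint (-R) (-ε) fun t ht => (lt_of_le_of_lt ht.2 (neg_lt_zero.mpr hε)).ne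
  have hd : Disjoint (Ioo ε R) (Ioo (-R) (-ε)) := by
    rw [Set.disjoint_left]; intro t h1 h2; linarith [h1.1, h2.2]
  have hmp : MeasurePreserving (fun t : ℝ => -t) volume volume := Measure.measurePreserving_neg volume
  have hneg : (∫ t in Ioo (-R) (-ε), line A ξ y t / (t : ℂ))
      = ∫ t in Ioo ε R, line A ξ y (-t) / ((-t : ℝ) : ℂ) := by
    rw [← hmp.setIntegral_preimage_emb (Homeomorph.neg ℝ).measurableEmbedding]
    congr 2
    ext t; simp [and_comm]
  have i2' : IntegrableOn (fun t : ℝ => line A ξ y (-t) / ((-t : ℝ) : ℂ)) (Ioo ε R) := by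
    have := (hmp.integrableOn_comp_preimage (Homeomorph.neg ℝ).measurableEmbedding).mpr i2
    simpa [Function.comp_def] using this
  rw [hset, setIntegral_union hd measurableSet_Ioo i1 i2, hneg, ← integral_add i1 i2']
  rfl

lemma tendsto_truncation {A : Fin 3 → Finset ℤ} {M : ℕ}
    (hA : ∀ j, A j ⊆ Finset.Icc (-3 * (M : ℤ)) M) (ξ y : ℝ) :
    Tendsto (fun q : ℝ × ℝ => ∫ t in {t : ℝ | q.1 < |t| ∧ |t| < q.2}, line A ξ y t / (t : ℂ))
      ((𝓝[>] (0 : ℝ)) ×ˢ atTop) (𝓝 (pv A ξ y)) := by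
  have hev : ∀ᶠ q : ℝ × ℝ in (𝓝[>] (0 : ℝ)) ×ˢ atTop, 0 < q.1 :=
    (eventually_mem_nhdsWithin (a := (0 : ℝ)) (s := Ioi 0)).prod_inl _
  have key : Tendsto (fun q : ℝ × ℝ => ∫ t in Ioi 0, (Ioo q.1 q.2).indicator (folded A ξ y) t)
      ((𝓝[>] (0 : ℝ)) ×ˢ atTop) (𝓝 (pv A ξ y)) := by
    have hint := integrableOn_folded hA ξ y
    apply tendsto_integral_filter_of_dominated_convergence (fun t => ‖folded A ξ y t‖)
    · exact Eventually.of_forall fun q => hint.aestronglyMeasurable.indicator measurableSet_Ioo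
    · exact Eventually.of_forall fun q => ae_of_all _ fun t => norm_indicator_le_norm_self _ _
    · exact hint.norm
    · refine (ae_restrict_mem measurableSet_Ioi).mono fun t ht => ?_
      apply tendsto_const_nhds.congr'
      have h1 : ∀ᶠ q : ℝ × ℝ in (𝓝[>] (0 : ℝ)) ×ˢ atTop, q.1 < t :=
        ((eventually_lt_nhds ht).filter_mono nhdsWithin_le_nhds).prod_inl _
      have h2 : ∀ᶠ q : ℝ × ℝ in (𝓝[>] (0 : ℝ)) ×ˢ atTop, t < q.2 :=
        (eventually_gt_atTop t).prod_inr _
      filter_upwards [h1, h2] with q hq1 hq2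
      rw [indicator_of_mem (show t ∈ Ioo q.1 q.2 from ⟨hq1, hq2⟩)]
  refine key.congr' ?_
  filter_upwards [hev] with q hq
  rw [truncation_eq A ξ y hq, setIntegral_indicator measurableSet_Ioo]
  congr 2
  exact inter_eq_right.mpr fun t ht => lt_trans hq ht.1

lemma pv_sub_lower {A : Fin 3 → Finset ℤ} {M : ℕ} (hM : 1 ≤ M)
    (hA : ∀ j, A j ⊆ Finset.Icc (-3 * (M : ℤ)) M) {x : ℤ} {k : ℝ}
    (hx : ∃ T : Finset ℤ, k ≤ (T.card : ℝ) ∧ T ⊆ Finset.Icc 0 (M : ℤ) ∧
      ∀ t ∈ T, ∀ j : Fin 3, x - ((j.val + 1 : ℕ) : ℤ) * t ∈ A j)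
    {y : ℝ} (hy : |y - (x : ℝ)| ≤ 1 / 40) :
    k / (240 * (M : ℝ)) ≤
      ‖pv A (1 / (4 * (M : ℝ) + 2)) y - pv A (-(1 / (4 * (M : ℝ) + 2))) y‖ := by
  obtain ⟨T, hk, hTM, hT⟩ := hx
  set ξ : ℝ := 1 / (4 * (M : ℝ) + 2) with hξ
  have hξ0 : 0 < ξ := by positivity
  set J : ℝ → ℝ := fun t => (profile A y t + profile A y (-t)) * (2 * Real.sin (ξ * t) / t)
    with hJ
  have hsub : ∀ t : ℝ, t ≠ 0 → folded A ξ y t - folded A (-ξ) y t = (J t : ℂ) * Complex.I := by
    intro t ht
    have h2 : Complex.exp ((ξ * t : ℝ) * Complex.I) - Complex.exp ((-(ξ * t) : ℝ) * Complex.I)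
        = 2 * (Real.sin (ξ * t) : ℂ) * Complex.I := by
      rw [Complex.exp_mul_I, Complex.exp_mul_I, Complex.ofReal_sin]
      push_cast
      rw [Complex.cos_neg, Complex.sin_neg]
      ring
    have ht' : (t : ℂ) ≠ 0 := by exact_mod_cast ht
    simp only [folded, line, hJ, neg_mul, mul_neg, neg_neg]
    push_cast at h2 ⊢
    rw [neg_mul] at h2
    field_simp
    linear_combination ((profile A y t : ℂ) + (profile A y (-t) : ℂ)) * h2
  have hi1 := integrableOn_folded hA ξ y
  have hi2 := integrableOn_folded hA (-ξ) y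
  have hJc : IntegrableOn (fun t => (J t : ℂ) * Complex.I) (Ioi 0) :=
    (hi1.sub hi2).congr ((ae_restrict_mem measurableSet_Ioi).mono fun t ht =>
      hsub t (ne_of_gt ht))
  have hJi : IntegrableOn J (Ioi 0) := by
    have := (hJc.mul_const (-Complex.I)).re
    simpa [IntegrableOn] using this
  have hdiff : pv A ξ y - pv A (-ξ) y = ((∫ t in Ioi 0, J t : ℝ) : ℂ) * Complex.I := by
    rw [pv, pv, ← integral_sub hi1 hi2, ← integral_complex_ofReal, ← integral_mul_const]
    exact setIntegral_congr_fun measurableSet_Ioi fun t ht => hsub t (ne_of_gt ht)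
  rw [hdiff, norm_mul, Complex.norm_I, mul_one, Complex.norm_real]
  refine le_trans ?_ (le_abs_self _)
  -- pointwise lower bound
  set S : Set ℝ := ⋃ t0 ∈ T, Ioc (t0 : ℝ) ((t0 : ℝ) + 1 / 40) with hS
  have hSpos : S ⊆ Ioi 0 := by
    intro t ht
    obtain ⟨t0, ht0, ht'⟩ := mem_iUnion₂.mp ht
    have : (0 : ℝ) ≤ t0 := by exact_mod_cast (Finset.mem_Icc.mp (hTM ht0)).1
    exact lt_of_le_of_lt this ht'.1
  have hSm : MeasurableSet S := Finset.measurableSet_biUnion T fun _ _ => measurableSet_Ioc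
  have hJnn : ∀ t ∈ Ioi (0 : ℝ), S.indicator (fun _ => ξ) t ≤ J t := by
    intro t ht
    have ht0 : (0 : ℝ) < t := ht
    rcases lt_or_ge (4 * (M : ℝ) + 2) t with h | h
    · have h1 : profile A y t = 0 := profile_eq_zero hA (by rw [abs_of_pos ht0]; exact h)
      have h2 : profile A y (-t) = 0 := profile_eq_zero hA (by rw [abs_neg, abs_of_pos ht0]; exact h)
      have hnS : t ∉ S := by
        intro hs
        obtain ⟨t0, ht0', ht'⟩ := mem_iUnion₂.mp hs
        have : (t0 : ℝ) ≤ M := by exact_mod_cast (Finset.mem_Icc.mp (hTM ht0')).2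
        have : (1 : ℝ) ≤ M := by exact_mod_cast hM
        linarith [ht'.2]
      simp [hJ, h1, h2, indicator_of_notMem hnS]
    · have hξt : ξ * t ≤ 1 := by
        rw [hξ, div_mul_eq_mul_div, one_mul, div_le_one (by positivity)]; exact h
      have hs : ξ ≤ 2 * Real.sin (ξ * t) / t := by
        rw [le_div_iff₀ ht0]
        have h1 := Real.mul_le_sin (x := ξ * t) (by positivity)
          (by have := Real.two_le_pi; linarith)
        have h2 : (1 : ℝ) / 2 * (ξ * t) ≤ 2 / Real.pi * (ξ * t) := by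
          apply mul_le_mul_of_nonneg_right ?_ (by positivity)
          rw [div_le_div_iff₀ (by norm_num) Real.pi_pos]
          linarith [Real.pi_le_four]
        linarith
      have hnn := profile_nonneg A y (-t)
      by_cases hm : t ∈ S
      · rw [indicator_of_mem hm]
        obtain ⟨t0, ht0', ht'⟩ := mem_iUnion₂.mp hm
        have hp : profile A y t = 1 := by
          have e : ∀ j : Fin 3, bumpSum (A j) (y - ((j.val + 1 : ℕ) : ℝ) * t) = 1 := by
            intro j
            refine bumpSum_eq_one (hT t0 ht0' j) ?_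
            push_cast
            have hj : (j.val : ℝ) ≤ 2 := by exact_mod_cast Nat.le_of_lt_succ j.isLt
            have hj0 : (0 : ℝ) ≤ j.val := Nat.cast_nonneg _
            rw [abs_le] at hy ⊢
            have hd : 0 ≤ t - t0 := by linarith [ht'.1]
            have hd' : t - t0 ≤ 1 / 40 := by linarith [ht'.2]
            have h3 : ((j.val : ℝ) + 1) * (t - t0) ≤ 3 * (1 / 40) :=
              mul_le_mul (by linarith) hd' hd (by norm_num)
            have h4 : 0 ≤ ((j.val : ℝ) + 1) * (t - t0) := mul_nonneg (by linarith) hd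
            constructor <;> linarith [hy.1, hy.2]
          have e0 := e 0; have e1 := e 1; have e2 := e 2
          norm_num at e0 e1 e2
          simp [profile, e0, e1, e2]
        calc ξ = 1 * ξ := (one_mul _).symm
          _ ≤ J t := by
            simp only [hJ, hp]
            exact mul_le_mul (by linarith) hs hξ0.le (by linarith)
      · rw [indicator_of_notMem hm]
        exact mul_nonneg (add_nonneg (profile_nonneg _ _ _) hnn) (le_trans hξ0.le hs)
  have hSv : volume S = (T.card : ℝ≥0∞) * ENNReal.ofReal (1 / 40) := by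
    rw [hS, measure_biUnion_finset]
    · simp [Real.volume_Ioc]
    · intro a _ b _ hab
      rw [Function.onFun, Set.disjoint_left]
      intro t ha hb
      apply hab
      have h1 : |(a : ℝ) - b| < 1 := by
        rw [abs_lt]; constructor <;> linarith [ha.1, ha.2, hb.1, hb.2]
      have h2 : |a - b| < 1 := by exact_mod_cast h1
      exact sub_eq_zero.mp (Int.abs_lt_one_iff.mp h2)
    · exact fun _ _ => measurableSet_Ioc
  have hSfin : volume S ≠ ⊤ := by
    rw [hSv]; exact ENNReal.mul_ne_top (ENNReal.natCast_ne_top _) ENNReal.ofReal_ne_top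
  calc k / (240 * (M : ℝ)) ≤ (T.card : ℝ) * (1 / 40) * ξ := by
        have hM' : (1 : ℝ) ≤ M := by exact_mod_cast hM
        have : 1 / (6 * (M : ℝ)) ≤ ξ := by
          rw [hξ]; exact one_div_le_one_div_of_le (by positivity) (by linarith)
        calc k / (240 * (M : ℝ)) = k * (1 / 40) * (1 / (6 * (M : ℝ))) := by field_simp; ring
          _ ≤ (T.card : ℝ) * (1 / 40) * (1 / (6 * (M : ℝ))) := by gcongr
          _ ≤ _ := mul_le_mul_of_nonneg_left this (by positivity)
    _ = ∫ t in Ioi 0, S.indicator (fun _ => ξ) t := by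
        rw [setIntegral_indicator hSm, inter_eq_right.mpr hSpos, setIntegral_const, smul_eq_mul,
          measureReal_def, hSv, ENNReal.toReal_mul, ENNReal.toReal_natCast,
          ENNReal.toReal_ofReal (by norm_num)]
    _ ≤ ∫ t in Ioi 0, J t := by
        refine setIntegral_mono_on ?_ hJi measurableSet_Ioi hJnn
        exact ((integrableOn_const hSfin).integrable_indicator hSm).integrableOn

end Vale.P141
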