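import Mathlib

/-! P141: counting lattice points in high dimensional balls and the 120-degree configuration. -/

namespace Vale.P141

open MeasureTheory Metric

abbrev Sp (L : ℕ) := EuclideanSpace ℝ (Fin L)

def emb {L : ℕ} (z : Fin L → ℤ) : Sp L := WithLp.toLp 2 (fun i => (z i : ℝ))

@[simp] lemma emb_apply {L : ℕ} (z : Fin L → ℤ) (i : Fin L) : (emb z) i = (z i : ℝ) := rfl

lemma emb_sub {L : ℕ} (a b : Fin L → ℤ) : emb (a - b) = emb a - emb b := by
  ext i; simp [emb]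

lemma emb_add {L : ℕ} (a b : Fin L → ℤ) : emb (a + b) = emb a + emb b := by
  ext i; simp [emb]

lemma emb_smul {L : ℕ} (k : ℤ) (a : Fin L → ℤ) : emb (k • a) = (k : ℝ) • emb a := by
  ext i; simp [emb]

lemma abs_coord_le {L : ℕ} (v : Sp L) (i : Fin L) : |v i| ≤ ‖v‖ :=
  PiLp.norm_apply_le (p := 2) v i

lemma lat_finite {L : ℕ} (c : Sp L) (r : ℝ) :
    {z : Fin L → ℤ | ‖emb z - c‖ ≤ r}.Finite := by
  apply Set.Finite.subset (Set.finite_Icc (fun i => ⌊c i - r⌋) (fun i => ⌈c i + r⌉))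
  intro z hz
  have h : ∀ i, |(z i : ℝ) - c i| ≤ r := fun i => (abs_coord_le (emb z - c) i).trans hz
  refine ⟨fun i => ?_, fun i => ?_⟩
  · have := (abs_le.mp (h i)).1
    exact Int.floor_le_iff.mpr (by linarith)
  · have := (abs_le.mp (h i)).2
    exact Int.cast_le.mp ((by linarith : (z i : ℝ) ≤ c i + r).trans (Int.le_ceil _))

noncomputable def latBall {L : ℕ} (c : Sp L) (r : ℝ) : Finset (Fin L → ℤ) :=
  (lat_finite c r).toFinset

lemma mem_latBall {L : ℕ} {c : Sp L} {r : ℝ} {z : Fin L → ℤ} :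
    z ∈ latBall c r ↔ ‖emb z - c‖ ≤ r := Set.Finite.mem_toFinset _

noncomputable def vol (L : ℕ) : ℝ := (volume (closedBall (0 : Sp L) 1)).toReal

lemma vol_nonneg (L : ℕ) : 0 ≤ vol L := ENNReal.toReal_nonneg

lemma volume_ball_toReal {L : ℕ} (c : Sp L) {r : ℝ} (hr : 0 ≤ r) :
    (volume ((WithLp.toLp 2 : (Fin L → ℝ) → Sp L) ⁻¹' closedBall c r)).toReal = r ^ L * vol L := by
  rw [(PiLp.volume_preserving_toLp (Fin L)).measure_preimage
    measurableSet_closedBall.nullMeasurableSet]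
  rw [Measure.addHaar_closedBall' volume c hr, finrank_euclideanSpace_fin, ENNReal.toReal_mul,
    ENNReal.toReal_ofReal (pow_nonneg hr L)]
  rfl

def cube {L : ℕ} (z : Fin L → ℤ) : Set (Fin L → ℝ) :=
  Set.pi Set.univ (fun i => Set.Ico (z i : ℝ) ((z i : ℝ) + 1))

lemma volume_cube {L : ℕ} (z : Fin L → ℤ) : volume (cube z) = 1 := by
  simp [cube, volume_pi_pi, Real.volume_Ico]

lemma floor_of_mem_cube {L : ℕ} {z : Fin L → ℤ} {p : Fin L → ℝ} (hp : p ∈ cube z) (i : Fin L) :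
    ⌊p i⌋ = z i := Int.floor_eq_iff.mpr ⟨(hp i trivial).1, (hp i trivial).2⟩

lemma cube_dist {L : ℕ} {z : Fin L → ℤ} {p : Fin L → ℝ} (hp : p ∈ cube z) :
    ‖WithLp.toLp 2 p - emb z‖ ≤ Real.sqrt L := by
  rw [EuclideanSpace.norm_eq]
  apply Real.sqrt_le_sqrt
  calc ∑ i, ‖(WithLp.toLp 2 p - emb z) i‖ ^ 2 ≤ ∑ _i : Fin L, (1 : ℝ) := by
        apply Finset.sum_le_sum
        intro i _
        have h := hp i trivial
        simp only [PiLp.sub_apply, emb_apply, Real.norm_eq_abs, sq_abs]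
        nlinarith [h.1, h.2]
    _ = L := by simp

lemma volume_cubes {L : ℕ} (S : Finset (Fin L → ℤ)) :
    volume (⋃ z ∈ S, cube z) = (S.card : ENNReal) := by
  rw [measure_biUnion_finset]
  · simp [volume_cube]
  · intro a _ b _ hab
    rw [Function.onFun, Set.disjoint_left]
    intro p hpa hpb
    exact hab (funext fun i => (floor_of_mem_cube hpa i).symm.trans (floor_of_mem_cube hpb i))
  · intro z _
    exact MeasurableSet.univ_pi fun i => measurableSet_Ico

lemma card_latBall_le {L : ℕ} (c : Sp L) {r : ℝ} (hr : 0 ≤ r) :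
    ((latBall c r).card : ℝ) ≤ (r + Real.sqrt L) ^ L * vol L := by
  have hs : (⋃ z ∈ latBall c r, cube z) ⊆
      (WithLp.toLp 2 : (Fin L → ℝ) → Sp L) ⁻¹' closedBall c (r + Real.sqrt L) := by
    intro p hp
    simp only [Set.mem_iUnion] at hp
    obtain ⟨z, hz, hp⟩ := hp
    rw [Set.mem_preimage, mem_closedBall, dist_eq_norm]
    calc ‖WithLp.toLp 2 p - c‖ ≤ ‖WithLp.toLp 2 p - emb z‖ + ‖emb z - c‖ :=
          norm_sub_le_norm_sub_add_norm_sub _ _ _
      _ ≤ r + Real.sqrt L := by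
          have := cube_dist hp
          have := mem_latBall.mp hz
          linarith
  have hr' : 0 ≤ r + Real.sqrt L := by positivity
  have hfin : volume ((WithLp.toLp 2 : (Fin L → ℝ) → Sp L) ⁻¹'
      closedBall c (r + Real.sqrt L)) ≠ ⊤ := by
    rw [(PiLp.volume_preserving_toLp (Fin L)).measure_preimage
      measurableSet_closedBall.nullMeasurableSet]
    exact measure_closedBall_lt_top.ne
  have h := ENNReal.toReal_mono hfin (measure_mono (μ := volume) hs)
  rwa [volume_cubes, ENNReal.toReal_natCast, volume_ball_toReal c hr'] at h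

lemma le_card_latBall {L : ℕ} (c : Sp L) {r : ℝ} (hr : Real.sqrt L ≤ r) :
    (r - Real.sqrt L) ^ L * vol L ≤ ((latBall c r).card : ℝ) := by
  have hs : (WithLp.toLp 2 : (Fin L → ℝ) → Sp L) ⁻¹' closedBall c (r - Real.sqrt L) ⊆
      ⋃ z ∈ latBall c r, cube z := by
    intro p hp
    rw [Set.mem_preimage, mem_closedBall, dist_eq_norm] at hp
    have hc : p ∈ cube (fun i => ⌊p i⌋) := fun i _ => ⟨Int.floor_le _, Int.lt_floor_add_one _⟩
    refine Set.mem_iUnion₂.mpr ⟨fun i => ⌊p i⌋, mem_latBall.mpr ?_, hc⟩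
    have h1 := cube_dist hc
    rw [norm_sub_rev] at h1
    calc ‖emb (fun i => ⌊p i⌋) - c‖
        ≤ ‖emb (fun i => ⌊p i⌋) - WithLp.toLp 2 p‖ + ‖WithLp.toLp 2 p - c‖ :=
          norm_sub_le_norm_sub_add_norm_sub _ _ _
      _ ≤ r := by linarith
  have hfin : volume (⋃ z ∈ latBall c r, cube z) ≠ ⊤ := by
    rw [volume_cubes]; exact ENNReal.natCast_ne_top _
  have h := ENNReal.toReal_mono hfin (measure_mono (μ := volume) hs)
  rwa [volume_cubes, ENNReal.toReal_natCast, volume_ball_toReal c (by linarith)] at h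

lemma le_vol {L : ℕ} (hL : 1 ≤ L) : (1 / Real.sqrt L) ^ L ≤ vol L := by
  classical
  have hs : (0 : ℝ) < Real.sqrt L := Real.sqrt_pos.mpr (by exact_mod_cast hL)
  have hsub : Fintype.piFinset (fun _ : Fin L => ({0, 1} : Finset ℤ)) ⊆
      latBall (0 : Sp L) (Real.sqrt L) := by
    intro z hz
    rw [mem_latBall, sub_zero, EuclideanSpace.norm_eq]
    apply Real.sqrt_le_sqrt
    calc ∑ i, ‖(emb z) i‖ ^ 2 ≤ ∑ _i : Fin L, (1 : ℝ) := by
          apply Finset.sum_le_sum
          intro i _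
          have h := Fintype.mem_piFinset.mp hz i
          simp only [Finset.mem_insert, Finset.mem_singleton] at h
          rcases h with h | h <;> simp [h]
      _ = L := by simp
  have h1 : (2 : ℝ) ^ L ≤ ((latBall (0 : Sp L) (Real.sqrt L)).card : ℝ) := by
    have h := Finset.card_le_card hsub
    rw [Fintype.card_piFinset] at h
    simp at h
    exact_mod_cast h
  have h2 := h1.trans (card_latBall_le (0 : Sp L) hs.le)
  have h3 : (2 : ℝ) ^ L = (1 / Real.sqrt L) ^ L * (Real.sqrt L + Real.sqrt L) ^ L := by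
    rw [← mul_pow]; congr 1; field_simp; ring
  rw [h3, mul_comm ((Real.sqrt L + Real.sqrt L) ^ L) (vol L)] at h2
  exact le_of_mul_le_mul_right h2 (by positivity)

/-- If `13 a² + (3/52) k² = 1` then `a x + k v` stays in the ball of radius `(1+δ) R`. -/
lemma norm_comb_le {L : ℕ} (x v : Sp L) {R δ a k : ℝ} (hR : 0 ≤ R) (hδ : 0 ≤ δ)
    (hx : ‖x‖ ≤ Real.sqrt 13 * R) (hv : ‖v‖ ≤ Real.sqrt (3 / 52) * R)
    (hxv : |inner ℝ x v| ≤ δ * Real.sqrt (3 / 52) * R * (Real.sqrt 13 * R))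
    (hak : 13 * a ^ 2 + 3 / 52 * k ^ 2 = 1) :
    ‖a • x + k • v‖ ≤ (1 + δ) * R := by
  have h13 : Real.sqrt 13 ^ 2 = (13 : ℝ) := Real.sq_sqrt (by norm_num)
  have h352 : Real.sqrt (3 / 52) ^ 2 = (3 / 52 : ℝ) := Real.sq_sqrt (by norm_num)
  have hexp : ‖a • x + k • v‖ ^ 2
      = a ^ 2 * ‖x‖ ^ 2 + 2 * (a * k) * inner ℝ x v + k ^ 2 * ‖v‖ ^ 2 := by
    rw [norm_add_sq_real, norm_smul, norm_smul, inner_smul_left, inner_smul_right, mul_pow,
      mul_pow, Real.norm_eq_abs, Real.norm_eq_abs, sq_abs, sq_abs]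
    simp only [RCLike.conj_to_real]; ring
  have hx2 : ‖x‖ ^ 2 ≤ 13 * R ^ 2 := by
    calc ‖x‖ ^ 2 ≤ (Real.sqrt 13 * R) ^ 2 := pow_le_pow_left₀ (norm_nonneg x) hx 2
      _ = _ := by rw [mul_pow, h13]
  have hv2 : ‖v‖ ^ 2 ≤ 3 / 52 * R ^ 2 := by
    calc ‖v‖ ^ 2 ≤ (Real.sqrt (3 / 52) * R) ^ 2 := pow_le_pow_left₀ (norm_nonneg v) hv 2
      _ = _ := by rw [mul_pow, h352]
  have ham : 2 * |a * k| * (Real.sqrt 13 * Real.sqrt (3 / 52)) ≤ 1 := by
    have := sq_nonneg (|a| * Real.sqrt 13 - |k| * Real.sqrt (3 / 52))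
    rw [abs_mul]
    nlinarith [sq_abs a, sq_abs k]
  have hmid : 2 * (a * k) * inner ℝ x v ≤ δ * R ^ 2 := by
    calc 2 * (a * k) * inner ℝ x v ≤ 2 * |a * k| * |inner ℝ x v| := by
          have := le_abs_self (a * k * inner ℝ x v)
          rw [abs_mul] at this
          linarith
      _ ≤ 2 * |a * k| * (δ * Real.sqrt (3 / 52) * R * (Real.sqrt 13 * R)) := by
          apply mul_le_mul_of_nonneg_left hxv; positivity
      _ = 2 * |a * k| * (Real.sqrt 13 * Real.sqrt (3 / 52)) * (δ * R ^ 2) := by ring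
      _ ≤ 1 * (δ * R ^ 2) := mul_le_mul_of_nonneg_right ham (by positivity)
      _ = _ := one_mul _
  have hfin : ‖a • x + k • v‖ ^ 2 ≤ ((1 + δ) * R) ^ 2 := by
    rw [hexp]
    have := mul_le_mul_of_nonneg_left hx2 (sq_nonneg a)
    have := mul_le_mul_of_nonneg_left hv2 (sq_nonneg k)
    nlinarith [mul_nonneg (mul_nonneg hδ hδ) (sq_nonneg R), mul_nonneg hδ (sq_nonneg R)]
  exact (pow_le_pow_iff_left₀ (norm_nonneg _) (by positivity) (by norm_num)).mp hfin

/-- For every centre `x` of norm at most `√13 R`, many lattice `u` give three short vectors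
`u`, `3u - x`, `4u - x`. -/
lemma fibre_card {L : ℕ} (x : Fin L → ℤ) {R δ : ℝ} (hR : 0 ≤ R) (hδ : 0 < δ) (hδ1 : δ ≤ 1)
    (hx : ‖emb x‖ ≤ Real.sqrt 13 * R) (hL : Real.sqrt L ≤ Real.sqrt (3 / 52) * R) :
    ∃ U : Finset (Fin L → ℤ),
      (Real.sqrt (3 / 52) * R - Real.sqrt L) ^ L * vol L
        - 2 * ((Real.sqrt (3 / 52) * R * Real.sqrt (1 - δ ^ 2) + Real.sqrt L) ^ L * vol L)
        ≤ (U.card : ℝ) ∧
      ∀ u ∈ U, ‖emb u‖ ≤ (1 + δ) * R ∧ ‖emb ((3 : ℤ) • u - x)‖ ≤ (1 + δ) * R ∧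
        ‖emb ((4 : ℤ) • u - x)‖ ≤ (1 + δ) * R := by
  classical
  set ρR := Real.sqrt (3 / 52) * R with hρ
  have hρ0 : 0 ≤ ρR := by positivity
  set c := (7 / 26 : ℝ) • emb x with hc
  set e := ‖emb x‖⁻¹ • emb x with he
  have he1 : ‖e‖ ≤ 1 := by
    rw [he, norm_smul, norm_inv, norm_norm]
    exact inv_mul_le_one
  set U := (latBall c ρR).filter (fun u => |inner ℝ e (emb u - c)| ≤ δ * ρR)
  refine ⟨U, ?_, ?_⟩
  · set r' := ρR * Real.sqrt (1 - δ ^ 2) with hr'
    have hr'0 : 0 ≤ r' := by positivity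
    have hsub : latBall c ρR ⊆ U ∪ latBall (c + (δ * ρR) • e) r'
        ∪ latBall (c - (δ * ρR) • e) r' := by
      intro u hu
      by_cases hg : |inner ℝ e (emb u - c)| ≤ δ * ρR
      · exact Finset.mem_union_left _ (Finset.mem_union_left _ (Finset.mem_filter.mpr ⟨hu, hg⟩))
      · have hv := mem_latBall.mp hu
        have key : ∀ σ : ℝ, σ ^ 2 = 1 → δ * ρR < σ * inner ℝ e (emb u - c) →
            ‖(emb u - c) - (σ * (δ * ρR)) • e‖ ≤ r' := by
          intro σ hσ hlt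
          have hexp : ‖(emb u - c) - (σ * (δ * ρR)) • e‖ ^ 2 = ‖emb u - c‖ ^ 2
              - 2 * (δ * ρR) * (σ * inner ℝ e (emb u - c)) + (δ * ρR) ^ 2 * ‖e‖ ^ 2 := by
            rw [norm_sub_sq_real, inner_smul_right, norm_smul, mul_pow, Real.norm_eq_abs, sq_abs,
              mul_pow σ, hσ, real_inner_comm e]
            ring
          have he2 : ‖e‖ ^ 2 ≤ 1 := pow_le_one₀ (norm_nonneg _) he1
          have hv2 : ‖emb u - c‖ ^ 2 ≤ ρR ^ 2 := pow_le_pow_left₀ (norm_nonneg _) hv 2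
          have hδρ : 0 ≤ δ * ρR := by positivity
          have h2 : ‖(emb u - c) - (σ * (δ * ρR)) • e‖ ^ 2 ≤ r' ^ 2 := by
            rw [hexp, hr', mul_pow ρR (Real.sqrt (1 - δ ^ 2)), Real.sq_sqrt (by nlinarith : (0 : ℝ) ≤ 1 - δ ^ 2)]
            nlinarith [mul_le_mul_of_nonneg_left hlt.le hδρ,
              mul_le_mul_of_nonneg_left he2 (sq_nonneg (δ * ρR))]
          exact (pow_le_pow_iff_left₀ (norm_nonneg _) hr'0 (by norm_num)).mp h2
        rcases lt_abs.mp (lt_of_not_ge hg) with h | h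
        · refine Finset.mem_union_left _ (Finset.mem_union_right _ (mem_latBall.mpr ?_))
          have := key 1 (by norm_num) (by linarith)
          rwa [one_mul, sub_sub] at this
        · refine Finset.mem_union_right _ (mem_latBall.mpr ?_)
          have := key (-1) (by norm_num) (by linarith)
          rwa [neg_one_mul, neg_smul, sub_neg_eq_add, ← sub_add] at *
    have h0 := (Finset.card_le_card hsub).trans
      ((Finset.card_union_le _ _).trans (Nat.add_le_add_right (Finset.card_union_le _ _) _))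
    have h1 : ((latBall c ρR).card : ℝ) ≤ (U.card : ℝ)
        + ((latBall (c + (δ * ρR) • e) r').card : ℝ)
        + ((latBall (c - (δ * ρR) • e) r').card : ℝ) := by exact_mod_cast h0
    have := le_card_latBall c hL
    have := card_latBall_le (c + (δ * ρR) • e) hr'0
    have := card_latBall_le (c - (δ * ρR) • e) hr'0
    linarith
  · intro u hu
    obtain ⟨hu1, hu2⟩ := Finset.mem_filter.mp hu
    set v := emb u - c with hv
    have hvn : ‖v‖ ≤ ρR := mem_latBall.mp hu1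
    have hin : |inner ℝ (emb x) v| ≤ δ * ρR * (Real.sqrt 13 * R) := by
      rcases eq_or_ne (‖emb x‖) 0 with h | h
      · rw [norm_eq_zero.mp h, inner_zero_left, abs_zero]; positivity
      · have hex : emb x = ‖emb x‖ • e := by rw [he, smul_inv_smul₀ h]
        rw [hex, inner_smul_left, RCLike.conj_to_real, abs_mul, abs_norm]
        calc ‖emb x‖ * |inner ℝ e v| ≤ (Real.sqrt 13 * R) * (δ * ρR) :=
              mul_le_mul hx hu2 (abs_nonneg _) (by positivity)
          _ = _ := by ring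
    have hin' : |inner ℝ (emb x) v|
        ≤ δ * Real.sqrt (3 / 52) * R * (Real.sqrt 13 * R) := by
      calc _ ≤ _ := hin
        _ = _ := by rw [hρ]; ring
    have hmain := fun a k => norm_comb_le (emb x) v (a := a) (k := k) hR hδ.le hx hvn hin'
    refine ⟨?_, ?_, ?_⟩
    · convert hmain (7 / 26) 1 (by norm_num) using 2
      rw [hv, hc]; module
    · convert hmain (-5 / 26) 3 (by norm_num) using 2
      rw [emb_sub, emb_smul, hv, hc]; push_cast; module
    · convert hmain (2 / 26) 4 (by norm_num) using 2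
      rw [emb_sub, emb_smul, hv, hc]; push_cast; module

end Vale.P141
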