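import Mathlib

/-! P141: random linear hashing `Z^L → Z/p` of a configuration and lifting back to `Z`. -/

namespace Vale.P141

open Finset

section

variable {L p : ℕ}

def hash (lam : Fin L → ZMod p) (z : Fin L → ℤ) : ZMod p := ∑ i, lam i * (z i : ZMod p)

lemma hash_sub (lam : Fin L → ZMod p) (a b : Fin L → ℤ) :
    hash lam (a - b) = hash lam a - hash lam b := by
  simp [hash, mul_sub, Finset.sum_sub_distrib]

lemma hash_smul (lam : Fin L → ZMod p) (k : ℤ) (a : Fin L → ℤ) :
    hash lam (k • a) = (k : ZMod p) * hash lam a := by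
  simp only [hash, Pi.smul_apply, smul_eq_mul, Int.cast_mul, Finset.mul_sum]
  exact Finset.sum_congr rfl fun i _ => by ring

open Classical in
noncomputable def coll (lam : Fin L → ZMod p) (S : Finset (Fin L → ℤ)) :
    Finset ((Fin L → ℤ) × (Fin L → ℤ)) :=
  S.offDiag.filter (fun q => hash lam q.1 = hash lam q.2)

open Classical in
lemma card_le_image_add_coll (lam : Fin L → ZMod p) (S : Finset (Fin L → ℤ)) :
    S.card ≤ (S.image (hash lam)).card + (coll lam S).card := by
  induction S using Finset.induction_on with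
  | empty => simp
  | @insert a S ha ih =>
    rw [card_insert_of_notMem ha]
    have hmono : coll lam S ⊆ coll lam (insert a S) := by
      intro q hq
      simp only [coll, mem_filter, mem_offDiag] at hq ⊢
      exact ⟨⟨mem_insert_of_mem hq.1.1, mem_insert_of_mem hq.1.2.1, hq.1.2.2⟩, hq.2⟩
    by_cases h : hash lam a ∈ S.image (hash lam)
    · obtain ⟨b, hb, hab⟩ := mem_image.mp h
      have hmem : (a, b) ∈ coll lam (insert a S) := by
        simp only [coll, mem_filter, mem_offDiag]
        exact ⟨⟨mem_insert_self _ _, mem_insert_of_mem hb, fun e => ha (e ▸ hb)⟩, hab.symm⟩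
      have hnot : (a, b) ∉ coll lam S := by
        simp only [coll, mem_filter, mem_offDiag]
        exact fun e => ha e.1.1
      have := card_lt_card ((Finset.ssubset_iff_of_subset hmono).mpr ⟨(a, b), hmem, hnot⟩)
      have := card_le_card (image_subset_image (f := hash lam) (subset_insert a S))
      omega
    · have := card_le_card hmono
      rw [image_insert, card_insert_of_notMem h]
      omega

variable [Fact p.Prime]

open Classical in
lemma card_kernel_le (d : Fin L → ℤ) (hd : ∃ i, (d i : ZMod p) ≠ 0) :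
    (univ.filter (fun lam : Fin L → ZMod p => hash lam d = 0)).card ≤ p ^ (L - 1) := by
  obtain ⟨i0, hi0⟩ := hd
  have h : (univ.filter (fun lam : Fin L → ZMod p => hash lam d = 0)).card
      ≤ (univ : Finset ({j : Fin L // j ≠ i0} → ZMod p)).card := by
    apply card_le_card_of_injOn (fun lam j => lam j.1)
    · exact fun _ _ => mem_coe.mpr (mem_univ _)
    · intro a ha b hb hab
      simp only [coe_filter, mem_univ, true_and, Set.mem_setOf_eq] at ha hb
      funext j
      have hne : ∀ k, k ≠ i0 → a k = b k := fun k hk => congrFun hab ⟨k, hk⟩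
      rcases eq_or_ne j i0 with rfl | hj
      · unfold hash at ha hb
        rw [← add_sum_erase _ _ (mem_univ j)] at ha hb
        have hs : ∑ k ∈ univ.erase j, a k * (d k : ZMod p)
            = ∑ k ∈ univ.erase j, b k * (d k : ZMod p) :=
          sum_congr rfl fun k hk => by rw [hne k (ne_of_mem_erase hk)]
        rw [hs] at ha
        exact mul_right_cancel₀ hi0 (add_right_cancel (ha.trans hb.symm))
      · exact hne j hj
  simpa [Fintype.card_fun] using h

open Classical in
lemma sum_coll_le (S : Finset (Fin L → ℤ))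
    (hsm : ∀ a ∈ S, ∀ b ∈ S, ∀ i, |a i - b i| < (p : ℤ)) :
    (∑ lam : Fin L → ZMod p, (coll lam S).card) ≤ S.card * S.card * p ^ (L - 1) := by
  calc (∑ lam : Fin L → ZMod p, (coll lam S).card)
      = ∑ q ∈ S.offDiag, (univ.filter (fun lam : Fin L → ZMod p =>
          hash lam q.1 = hash lam q.2)).card := by
        simp only [coll, card_filter]; exact sum_comm
    _ ≤ ∑ _q ∈ S.offDiag, p ^ (L - 1) := by
        apply sum_le_sum
        intro q hq
        obtain ⟨h1, h2, h3⟩ := mem_offDiag.mp hq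
        have hd : ∃ i, ((q.1 - q.2) i : ZMod p) ≠ 0 := by
          obtain ⟨i, hi⟩ := Function.ne_iff.mp h3
          refine ⟨i, fun h => hi ?_⟩
          rw [Pi.sub_apply] at h
          have hdvd := (ZMod.intCast_zmod_eq_zero_iff_dvd _ _).mp h
          have hlt := hsm q.1 h1 q.2 h2 i
          by_contra hne
          exact absurd (Int.le_of_dvd (abs_pos.mpr (sub_ne_zero.mpr hne))
            ((dvd_abs _ _).mpr hdvd)) (not_le.mpr hlt)
        refine le_trans (le_of_eq ?_) (card_kernel_le _ hd)
        congr 1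
        ext lam
        simp [hash_sub, sub_eq_zero]
    _ ≤ S.card * S.card * p ^ (L - 1) := by
        rw [sum_const, smul_eq_mul, offDiag_card]
        exact Nat.mul_le_mul_right _ (Nat.sub_le _ _)

/-- All lifts in `[-3p, p]` of a set of residues. -/
noncomputable def lifts (A : Finset (ZMod p)) : Finset ℤ :=
  (Icc (-3 * (p : ℤ)) p).filter (fun z => (z : ZMod p) ∈ A)

lemma card_lifts_le (A : Finset (ZMod p)) : (lifts A).card ≤ A.card * 5 := by
  classical
  have hp : (0 : ℤ) < p := by exact_mod_cast (Fact.out : p.Prime).pos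
  have hsub : lifts A ⊆ (A ×ˢ Icc (-3 : ℤ) 1).image (fun q => (q.1.val : ℤ) + q.2 * p) := by
    intro z hz
    obtain ⟨hz1, hz2⟩ := mem_filter.mp hz
    rw [mem_Icc] at hz1
    refine mem_image.mpr ⟨((z : ZMod p), z / p), mem_product.mpr ⟨hz2, mem_Icc.mpr ⟨?_, ?_⟩⟩, ?_⟩
    · exact (Int.le_ediv_iff_mul_le hp).mpr (by linarith [hz1.1])
    · exact Int.lt_add_one_iff.mp ((Int.ediv_lt_iff_lt_mul hp).mpr (by linarith [hz1.2]))
    · simp only [ZMod.val_intCast]
      have := Int.emod_add_mul_ediv z p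
      linarith
  calc (lifts A).card ≤ _ := card_le_card hsub
    _ ≤ (A ×ˢ Icc (-3 : ℤ) 1).card := card_image_le
    _ = A.card * 5 := by rw [card_product]; rfl

/-- Hash a configuration in `Z^L` to one in `[0,p)`, losing constant factors only. -/
lemma exists_int_config (X : Finset (Fin L → ℤ)) (A : Fin 3 → Finset (Fin L → ℤ))
    (T : (Fin L → ℤ) → Finset (Fin L → ℤ)) (K : ℕ) (hK : 0 < K) (hKX : K ≤ X.card)
    (hT : ∀ x ∈ X, (T x).card = K) (hp : 6 * X.card ≤ p) (hL : 1 ≤ L)
    (hsmX : ∀ a ∈ X, ∀ b ∈ X, ∀ i, |a i - b i| < (p : ℤ))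
    (hsmT : ∀ x ∈ X, ∀ a ∈ T x, ∀ b ∈ T x, ∀ i, |a i - b i| < (p : ℤ))
    (hinc : ∀ x ∈ X, ∀ t ∈ T x, ∀ j : Fin 3, x - ((j.val + 1 : ℕ) : ℤ) • t ∈ A j) :
    ∃ (Xz : Finset ℤ) (Az : Fin 3 → Finset ℤ),
      X.card ≤ 2 * Xz.card ∧ Xz ⊆ Icc 0 (p : ℤ) ∧
      (∀ j, (Az j).card ≤ 5 * (A j).card) ∧ (∀ j, Az j ⊆ Icc (-3 * (p : ℤ)) p) ∧
      ∀ x ∈ Xz, ∃ Tz : Finset ℤ, K ≤ 2 * Tz.card ∧ Tz ⊆ Icc 0 (p : ℤ) ∧
        ∀ t ∈ Tz, ∀ j : Fin 3, x - ((j.val + 1 : ℕ) : ℤ) * t ∈ Az j := by
  classical
  set N := X.card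
  have hp0 : 0 < p := (Fact.out : p.Prime).pos
  -- a good hash
  have hsum : ∑ lam : Fin L → ZMod p,
      2 * (K * (coll lam X).card + 2 * ∑ x ∈ X, (coll lam (T x)).card)
      ≤ ∑ _lam : Fin L → ZMod p, K * N := by
    rw [← mul_sum, sum_add_distrib, ← mul_sum, ← mul_sum,
      sum_comm (f := fun lam x => (coll lam (T x)).card)]
    calc 2 * (K * ∑ lam : Fin L → ZMod p, (coll lam X).card
          + 2 * ∑ x ∈ X, ∑ lam : Fin L → ZMod p, (coll lam (T x)).card)
        ≤ 2 * (K * (N * N * p ^ (L - 1)) + 2 * ∑ _x ∈ X, K * K * p ^ (L - 1)) := by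
          gcongr with x hx
          · exact sum_coll_le X hsmX
          · have := sum_coll_le (T x) (hsmT x hx)
            rwa [hT x hx] at this
      _ = (K * N * (2 * (N + 2 * K))) * p ^ (L - 1) := by rw [sum_const, smul_eq_mul]; ring
      _ ≤ (K * N * p) * p ^ (L - 1) :=
          Nat.mul_le_mul_right _ (Nat.mul_le_mul_left _ (by omega))
      _ = ∑ _lam : Fin L → ZMod p, K * N := by
          rw [sum_const, smul_eq_mul, card_univ, Fintype.card_fun, ZMod.card, Fintype.card_fin]
          calc K * N * p * p ^ (L - 1) = K * N * p ^ (L - 1 + 1) := by ring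
            _ = _ := by rw [Nat.sub_add_cancel hL]; ring
  obtain ⟨lam, -, hlam⟩ := exists_le_of_sum_le univ_nonempty hsum
  set G := X.filter (fun x => 2 * (coll lam (T x)).card ≤ K) with hG
  have hbad : K * (X.filter (fun x => ¬ 2 * (coll lam (T x)).card ≤ K)).card
      ≤ 2 * ∑ x ∈ X, (coll lam (T x)).card := by
    calc K * (X.filter (fun x => ¬ 2 * (coll lam (T x)).card ≤ K)).card
        = ∑ _x ∈ X.filter (fun x => ¬ 2 * (coll lam (T x)).card ≤ K), K := by
          rw [sum_const, smul_eq_mul, mul_comm]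
      _ ≤ ∑ x ∈ X.filter (fun x => ¬ 2 * (coll lam (T x)).card ≤ K),
            2 * (coll lam (T x)).card := sum_le_sum fun x hx => by
          have := (mem_filter.mp hx).2; omega
      _ ≤ ∑ x ∈ X, 2 * (coll lam (T x)).card :=
          sum_le_sum_of_subset (filter_subset _ _)
      _ = _ := by rw [mul_sum]
  have hsplit : G.card + (X.filter (fun x => ¬ 2 * (coll lam (T x)).card ≤ K)).card = N :=
    card_filter_add_card_filter_not _
  have hGc : (coll lam G).card ≤ (coll lam X).card := by
    apply card_le_card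
    intro q hq
    simp only [coll, mem_filter, mem_offDiag] at hq ⊢
    exact ⟨⟨filter_subset _ _ hq.1.1, filter_subset _ _ hq.1.2.1, hq.1.2.2⟩, hq.2⟩
  have himg := card_le_image_add_coll lam G
  refine ⟨(G.image (hash lam)).image (fun a => (a.val : ℤ)),
    fun j => lifts ((A j).image (hash lam)), ?_, ?_, ?_, ?_, ?_⟩
  · rw [card_image_of_injective _ (fun a b h => ZMod.val_injective p (by exact_mod_cast h))]
    have h1 : K * N ≤ K * (G.image (hash lam)).card + K * (coll lam X).card
        + 2 * ∑ x ∈ X, (coll lam (T x)).card := by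
      have : K * N = K * G.card
          + K * (X.filter (fun x => ¬ 2 * (coll lam (T x)).card ≤ K)).card := by
        rw [← mul_add, hsplit]
      have h2 : K * G.card ≤ K * (G.image (hash lam)).card + K * (coll lam X).card := by
        rw [← mul_add]; exact Nat.mul_le_mul_left _ (by omega)
      omega
    have h3 : K * N ≤ K * (2 * (G.image (hash lam)).card) := by
      rw [← mul_assoc, mul_comm K 2, mul_assoc]; omega
    exact Nat.le_of_mul_le_mul_left h3 hK
  · intro z hz
    obtain ⟨a, -, rfl⟩ := mem_image.mp hz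
    rw [mem_Icc]
    exact ⟨by positivity, by exact_mod_cast (ZMod.val_lt a).le⟩
  · intro j
    calc (lifts ((A j).image (hash lam))).card ≤ _ := card_lifts_le _
      _ ≤ (A j).card * 5 := Nat.mul_le_mul_right _ card_image_le
      _ = _ := mul_comm _ _
  · exact fun j => filter_subset _ _
  · intro z hz
    obtain ⟨a, ha, rfl⟩ := mem_image.mp hz
    obtain ⟨x, hx, rfl⟩ := mem_image.mp ha
    obtain ⟨hxX, hxg⟩ := mem_filter.mp hx
    refine ⟨((T x).image (hash lam)).image (fun a => (a.val : ℤ)), ?_, ?_, ?_⟩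
    · rw [card_image_of_injective _ (fun a b h => ZMod.val_injective p (by exact_mod_cast h))]
      have := card_le_image_add_coll lam (T x)
      rw [hT x hxX] at this
      omega
    · intro z hz
      obtain ⟨a, -, rfl⟩ := mem_image.mp hz
      rw [mem_Icc]
      exact ⟨by positivity, by exact_mod_cast (ZMod.val_lt a).le⟩
    · intro z hz j
      obtain ⟨a, hat, rfl⟩ := mem_image.mp hz
      obtain ⟨t, ht, rfl⟩ := mem_image.mp hat
      refine mem_filter.mpr ⟨mem_Icc.mpr ?_, ?_⟩
      · have h1 : ((hash lam x).val : ℤ) < p := by exact_mod_cast ZMod.val_lt _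
        have h2 : ((hash lam t).val : ℤ) < p := by exact_mod_cast ZMod.val_lt _
        have h3 : (0 : ℤ) ≤ (hash lam x).val := by positivity
        have h4 : (0 : ℤ) ≤ (hash lam t).val := by positivity
        have hj : (1 : ℤ) ≤ ((j.val + 1 : ℕ) : ℤ) ∧ ((j.val + 1 : ℕ) : ℤ) ≤ 3 := by
          have := j.isLt; omega
        have h5 := mul_le_mul hj.2 h2.le h4 (by norm_num : (0 : ℤ) ≤ 3)
        have h6 := mul_nonneg (by linarith [hj.1] : (0 : ℤ) ≤ ((j.val + 1 : ℕ) : ℤ)) h4
        constructor <;> linarith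
      · refine mem_image.mpr ⟨_, hinc x hxX t ht j, ?_⟩
        rw [hash_sub, hash_smul]
        push_cast
        rw [ZMod.natCast_zmod_val, ZMod.natCast_zmod_val]

end

end Vale.P141
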