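import Mathlib
import Vale.Agent.P141.Count
import Vale.Agent.P141.Hash

/-! P141: integer configurations with `|X|^s k / M` beating `n^s` when `s log 13 > log (676/3)`. -/

namespace Vale.P141

open Filter Topology Real

/-- growth rate per dimension -/
noncomputable def rate (s δ : ℝ) : ℝ :=
  (sqrt 13 * (1 - δ ^ 2 / 8)) ^ s * (sqrt (3 / 52) * (1 - δ ^ 2 / 8))
    / (sqrt 13 * (1 + δ ^ 2 / 8) * (1 + 2 * δ) ^ s)

lemma one_lt_rate_zero {s : ℝ} (hs : log (676 / 3) < s * log 13) : 1 < rate s 0 := by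
  have h13 : (0 : ℝ) < sqrt 13 := sqrt_pos.mpr (by norm_num)
  have h352 : (0 : ℝ) < sqrt (3 / 52) := sqrt_pos.mpr (by norm_num)
  have e : rate s 0 = (sqrt 13) ^ s * sqrt (3 / 52) / sqrt 13 := by simp [rate]
  rw [e, ← log_pos_iff (by positivity), log_div (by positivity) h13.ne',
    log_mul (by positivity) h352.ne', log_rpow h13, log_sqrt (by norm_num),
    log_sqrt (by norm_num)]
  have : log (676 / 3 : ℝ) = log 13 - log (3 / 52) := by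
    rw [← log_div (by norm_num) (by norm_num)]; norm_num
  nlinarith

lemma exists_delta {s : ℝ} (hs : log (676 / 3) < s * log 13) :
    ∃ δ : ℝ, 0 < δ ∧ δ ≤ 1 ∧ 1 < rate s δ := by
  have hc : ContinuousAt (rate s) 0 := by
    unfold rate
    apply ContinuousAt.div
    · refine ContinuousAt.mul (ContinuousAt.rpow_const (by fun_prop) (Or.inl ?_)) (by fun_prop)
      have : (0 : ℝ) < sqrt 13 := sqrt_pos.mpr (by norm_num)
      simp [this.ne']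
    · refine ContinuousAt.mul (by fun_prop) (ContinuousAt.rpow_const (by fun_prop) (Or.inl ?_))
      norm_num
    · simp
  have h1 : ∀ᶠ δ in 𝓝 (0 : ℝ), 1 < rate s δ :=
    hc.eventually (eventually_gt_nhds (one_lt_rate_zero hs))
  obtain ⟨ε, hε, hb⟩ := Metric.eventually_nhds_iff.mp h1
  refine ⟨min (ε / 2) 1, lt_min (by linarith) one_pos, min_le_right _ _, hb ?_⟩
  rw [dist_zero_right, Real.norm_eq_abs, abs_of_pos (lt_min (by linarith) one_pos)]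
  exact lt_of_le_of_lt (min_le_left _ _) (by linarith)

lemma le_abs_coord {L : ℕ} (z : Fin L → ℤ) (i : Fin L) : |(z i : ℝ)| ≤ ‖emb z‖ := by
  simpa using abs_coord_le (emb z) i

lemma line_card {L : ℕ} (hL : 0 < L) {R : ℝ} (hR : 2 * (L : ℝ) ≤ R) :
    2 * L + 1 ≤ (latBall (0 : Sp L) R).card := by
  classical
  let i0 : Fin L := ⟨0, hL⟩
  have hsub : (Finset.range (2 * L + 1)).image (fun j : ℕ => (Pi.single i0 (j : ℤ) : Fin L → ℤ))
      ⊆ latBall (0 : Sp L) R := by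
    intro z hz
    obtain ⟨j, hj, rfl⟩ := Finset.mem_image.mp hz
    rw [mem_latBall, sub_zero]
    have : emb (Pi.single i0 (j : ℤ)) = EuclideanSpace.single i0 (j : ℝ) := by
      ext i
      by_cases h : i = i0 <;> simp [h]
    rw [this, PiLp.norm_single, Real.norm_natCast]
    have hj' : (j : ℝ) ≤ 2 * L := by
      have := Finset.mem_range.mp hj
      have : j ≤ 2 * L := by omega
      exact_mod_cast this
    linarith
  have hcard := Finset.card_le_card hsub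
  rwa [Finset.card_image_of_injective _ (fun a b h => by
    have := congrFun h i0; simpa using this), Finset.card_range] at hcard

lemma rate_algebra {L : ℕ} {s V q ρ τ δ R : ℝ} (hV : 0 < V) (hq : 0 < q) (hρ : 0 ≤ ρ)
    (hτ : 0 ≤ τ) (hτ1 : τ ≤ 1) (hδ : 0 ≤ δ) (hR : 0 < R) :
    (1 / 2) ^ s / (96 * 5 ^ s)
        * ((q * (1 - τ)) ^ s * (ρ * (1 - τ)) / (q * (1 + τ) * (1 + 2 * δ) ^ s)) ^ L
        * (5 * (V * ((1 + 2 * δ) * R) ^ L)) ^ s
      = ((1 / 2) * (V * (q * (1 - τ) * R) ^ L)) ^ s * (V * (ρ * (1 - τ) * R) ^ L / 8)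
          / (12 * (V * (q * (1 + τ) * R) ^ L)) := by
  have e1 : ∀ {a : ℝ}, 0 ≤ a → (a ^ L) ^ s = (a ^ s) ^ L := fun {a} ha => by
    rw [← rpow_natCast a L, ← rpow_mul ha, mul_comm, rpow_mul ha, rpow_natCast]
  have hqτ : 0 ≤ q * (1 - τ) := mul_nonneg hq.le (by linarith)
  have hb : 0 ≤ 1 + 2 * δ := by linarith
  have A1 : (5 * (V * ((1 + 2 * δ) * R) ^ L)) ^ s
      = 5 ^ s * (V ^ s * (((1 + 2 * δ) ^ s) ^ L * (R ^ s) ^ L)) := by
    rw [mul_rpow (by norm_num) (mul_nonneg hV.le (pow_nonneg (mul_nonneg hb hR.le) L)),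
      mul_rpow hV.le (pow_nonneg (mul_nonneg hb hR.le) L), e1 (mul_nonneg hb hR.le),
      mul_rpow hb hR.le, mul_pow]
  have A2 : ((1 / 2) * (V * (q * (1 - τ) * R) ^ L)) ^ s
      = (1 / 2) ^ s * (V ^ s * (((q * (1 - τ)) ^ s) ^ L * (R ^ s) ^ L)) := by
    rw [mul_rpow (by norm_num) (mul_nonneg hV.le (pow_nonneg (mul_nonneg hqτ hR.le) L)),
      mul_rpow hV.le (pow_nonneg (mul_nonneg hqτ hR.le) L), e1 (mul_nonneg hqτ hR.le),
      mul_rpow hqτ hR.le, mul_pow]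
  have n1 : ((1 + 2 * δ) ^ s) ^ L ≠ 0 := pow_ne_zero L (rpow_pos_of_pos (by linarith) s).ne'
  have n2 : (5 : ℝ) ^ s ≠ 0 := (rpow_pos_of_pos (by norm_num) s).ne'
  have n3 : (q * (1 + τ)) ^ L ≠ 0 := pow_ne_zero L (by positivity)
  have n4 : R ^ L ≠ 0 := pow_ne_zero L hR.ne'
  rw [A1, A2, div_pow, mul_pow ((q * (1 - τ)) ^ s), mul_pow (q * (1 + τ)), mul_pow (ρ * (1 - τ)) R,
    mul_pow (q * (1 + τ)) R]
  generalize ((1 + 2 * δ) ^ s) ^ L = Bd at *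
  generalize (q * (1 + τ)) ^ L = Qp at *
  generalize ((q * (1 - τ)) ^ s) ^ L = Qm
  generalize (ρ * (1 - τ)) ^ L = Pm
  generalize (R ^ s) ^ L = Rs
  generalize R ^ L = RL at *
  generalize V ^ s = Vs
  generalize (5 : ℝ) ^ s = Fs at *
  generalize (1 / 2 : ℝ) ^ s = Hs
  field_simp
  ring

lemma fibres {L : ℕ} {δ : ℝ} (hδ : 0 < δ) (hδ1 : δ ≤ 1)
    (hsq : sqrt L ≤ δ ^ 2 / 8 * sqrt (3 / 52) * L)
    (hgap : 4 * (1 - 3 * (δ ^ 2 / 8)) ^ L ≤ (1 - δ ^ 2 / 8) ^ L) :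
    ∀ x ∈ latBall (0 : Sp L) (sqrt 13 * (L : ℝ)), ∃ U : Finset (Fin L → ℤ),
      vol L * (sqrt (3 / 52) * (1 - δ ^ 2 / 8) * (L : ℝ)) ^ L / 2 ≤ (U.card : ℝ) ∧
      ∀ u ∈ U, ‖emb u‖ ≤ (1 + δ) * L ∧ ‖emb ((3 : ℤ) • u - x)‖ ≤ (1 + δ) * L ∧
        ‖emb ((4 : ℤ) • u - x)‖ ≤ (1 + δ) * L := by
  intro x hx
  rw [mem_latBall, sub_zero] at hx
  set τ := δ ^ 2 / 8 with hτ
  have hτ0 : 0 < τ := by positivity
  have hτ1 : τ ≤ 1 / 8 := by rw [hτ]; nlinarith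
  set ρ := sqrt (3 / 52 : ℝ) with hρ_def
  have hρ0 : 0 < ρ := sqrt_pos.mpr (by norm_num)
  set R : ℝ := (L : ℝ) with hR
  have hR0 : 0 ≤ R := Nat.cast_nonneg L
  have hρR : 0 ≤ ρ * R := mul_nonneg hρ0.le hR0
  obtain ⟨U, hU, hU'⟩ := fibre_card x hR0 hδ hδ1 hx
    (hsq.trans (by nlinarith [mul_le_mul_of_nonneg_right (show τ ≤ 1 by linarith) hρR]))
  refine ⟨U, le_trans ?_ hU, hU'⟩
  set V := vol L with hV
  have hV0 : 0 ≤ V := vol_nonneg L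
  have h1 : (ρ * (1 - τ) * R) ^ L * V ≤ (ρ * R - sqrt L) ^ L * V := by
    apply mul_le_mul_of_nonneg_right (pow_le_pow_left₀ ?_ ?_ L) hV0
    · exact mul_nonneg (mul_nonneg hρ0.le (by linarith)) hR0
    · calc ρ * (1 - τ) * R = ρ * R - τ * ρ * R := by ring
        _ ≤ _ := by linarith [hsq]
  have h2 : (ρ * R * sqrt (1 - δ ^ 2) + sqrt L) ^ L * V ≤ (ρ * (1 - 3 * τ) * R) ^ L * V := by
    apply mul_le_mul_of_nonneg_right (pow_le_pow_left₀ (by positivity) ?_ L) hV0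
    have hsd : sqrt (1 - δ ^ 2) ≤ 1 - 4 * τ :=
      sqrt_le_iff.mpr ⟨by linarith, by rw [hτ]; nlinarith⟩
    calc ρ * R * sqrt (1 - δ ^ 2) + sqrt L ≤ ρ * R * (1 - 4 * τ) + τ * ρ * R :=
          add_le_add (mul_le_mul_of_nonneg_left hsd hρR) hsq
      _ = _ := by ring
  have h3 : 4 * ((ρ * (1 - 3 * τ) * R) ^ L * V) ≤ (ρ * (1 - τ) * R) ^ L * V := by
    rw [mul_pow, mul_pow, mul_pow, mul_pow]
    calc 4 * (ρ ^ L * (1 - 3 * τ) ^ L * R ^ L * V)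
        = (4 * (1 - 3 * τ) ^ L) * (ρ ^ L * R ^ L * V) := by ring
      _ ≤ (1 - τ) ^ L * (ρ ^ L * R ^ L * V) :=
          mul_le_mul_of_nonneg_right hgap (by positivity)
      _ = _ := by ring
  linarith

lemma sub_small {L : ℕ} (p : ℕ) (x u v : Fin L → ℤ) (i : Fin L)
    (hu : |(u i : ℝ)| ≤ 2 * L) (hv : |(v i : ℝ)| ≤ 2 * L) (hp : 8 * (L : ℝ) < p) :
    |(x - (2 : ℤ) • u) i - (x - (2 : ℤ) • v) i| < (p : ℤ) := by
  have h : |((x i : ℝ) - 2 * u i) - ((x i : ℝ) - 2 * v i)| < p := by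
    rw [abs_lt]
    rw [abs_le] at hu hv
    constructor <;> linarith
  simp only [Pi.sub_apply, Pi.smul_apply, smul_eq_mul]
  exact_mod_cast h

lemma incidence {L : ℕ} (x u : Fin L → ℤ) :
    x - ((0 + 1 : ℕ) : ℤ) • (x - (2 : ℤ) • u) = (2 : ℤ) • u ∧
    x - ((1 + 1 : ℕ) : ℤ) • (x - (2 : ℤ) • u) = (4 : ℤ) • u - x ∧
    x - ((2 + 1 : ℕ) : ℤ) • (x - (2 : ℤ) • u) = (2 : ℤ) • ((3 : ℤ) • u - x) := by
  refine ⟨?_, ?_, ?_⟩ <;> funext i <;>
    simp only [Pi.sub_apply, Pi.smul_apply, smul_eq_mul] <;> push_cast <;> ring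

lemma final_ineq {L : ℕ} {s δ V R Bc Xc Xz K p : ℝ} (hs : 0 ≤ s) (hV : 0 < V) (hR : 0 < R)
    (hδ : 0 ≤ δ) (hδ1 : δ ≤ 1) (hB0 : 0 ≤ Bc) (hB : Bc ≤ V * ((1 + 2 * δ) * R) ^ L)
    (hX : V * (sqrt 13 * (1 - δ ^ 2 / 8) * R) ^ L ≤ Xc) (hXz : Xc ≤ 2 * Xz)
    (hK : V * (sqrt (3 / 52) * (1 - δ ^ 2 / 8) * R) ^ L / 4 ≤ K) (hp : 0 < p)
    (hp' : p ≤ 12 * (V * (sqrt 13 * (1 + δ ^ 2 / 8) * R) ^ L)) :
    (1 / 2) ^ s / (96 * 5 ^ s) * rate s δ ^ L * (5 * Bc) ^ s ≤ Xz ^ s * (K / 2) / p := by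
  have hq : (0 : ℝ) < sqrt 13 := sqrt_pos.mpr (by norm_num)
  have hρ : (0 : ℝ) ≤ sqrt (3 / 52) := sqrt_nonneg _
  have hd : δ ^ 2 / 8 ≤ 1 := by nlinarith
  have h1τ : 0 ≤ 1 - δ ^ 2 / 8 := by linarith
  have hnum : 0 ≤ rate s δ := by
    rw [rate]
    exact div_nonneg (mul_nonneg (rpow_nonneg (mul_nonneg hq.le h1τ) s) (mul_nonneg hρ h1τ))
      (mul_nonneg (mul_nonneg hq.le (by positivity)) (rpow_nonneg (by linarith) s))
  have hA : 0 ≤ V * (sqrt 13 * (1 - δ ^ 2 / 8) * R) ^ L :=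
    mul_nonneg hV.le (pow_nonneg (mul_nonneg (mul_nonneg hq.le h1τ) hR.le) L)
  have hW : 0 ≤ V * (sqrt (3 / 52) * (1 - δ ^ 2 / 8) * R) ^ L :=
    mul_nonneg hV.le (pow_nonneg (mul_nonneg (mul_nonneg hρ h1τ) hR.le) L)
  calc (1 / 2) ^ s / (96 * 5 ^ s) * rate s δ ^ L * (5 * Bc) ^ s
      ≤ (1 / 2) ^ s / (96 * 5 ^ s) * rate s δ ^ L
          * (5 * (V * ((1 + 2 * δ) * R) ^ L)) ^ s :=
        mul_le_mul_of_nonneg_left (rpow_le_rpow (by linarith) (by linarith) hs)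
          (mul_nonneg (by positivity) (pow_nonneg hnum L))
    _ = ((1 / 2) * (V * (sqrt 13 * (1 - δ ^ 2 / 8) * R) ^ L)) ^ s
          * (V * (sqrt (3 / 52) * (1 - δ ^ 2 / 8) * R) ^ L / 8)
          / (12 * (V * (sqrt 13 * (1 + δ ^ 2 / 8) * R) ^ L)) := by
        rw [rate]
        exact rate_algebra hV hq hρ (by positivity) hd hδ hR
    _ ≤ Xz ^ s * (K / 2) / p :=
        div_le_div₀ (mul_nonneg (rpow_nonneg (by linarith) s) (by linarith))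
          (mul_le_mul (rpow_le_rpow (by linarith) (by linarith) hs) (by linarith) (by linarith)
            (rpow_nonneg (by linarith) s)) hp hp'

/-- The configuration for one large dimension `L`. -/
lemma config_at {L : ℕ} {s δ : ℝ} (hs : 0 ≤ s) (hδ : 0 < δ) (hδ1 : δ ≤ 1) (hL : 1 ≤ L)
    (hsq : sqrt L ≤ δ ^ 2 / 8 * sqrt (3 / 52) * L)
    (hbig : 4 ≤ sqrt L * sqrt (3 / 52) * (1 - δ ^ 2 / 8))
    (hgap : 4 * (1 - 3 * (δ ^ 2 / 8)) ^ L ≤ (1 - δ ^ 2 / 8) ^ L) :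
    ∃ (M : ℕ) (n k : ℝ) (X : Finset ℤ) (A : Fin 3 → Finset ℤ),
      1 ≤ M ∧ 1 ≤ n ∧ 0 ≤ k ∧ X ⊆ Finset.Icc 0 (M : ℤ) ∧ (∀ j, ((A j).card : ℝ) ≤ n) ∧
      (∀ j, A j ⊆ Finset.Icc (-3 * (M : ℤ)) M) ∧
      (∀ x ∈ X, ∃ T : Finset ℤ, k ≤ (T.card : ℝ) ∧ T ⊆ Finset.Icc 0 (M : ℤ) ∧
        ∀ t ∈ T, ∀ j : Fin 3, x - ((j.val + 1 : ℕ) : ℤ) * t ∈ A j) ∧
      (1 / 2) ^ s / (96 * 5 ^ s) * rate s δ ^ L * n ^ s ≤ (X.card : ℝ) ^ s * k / M := by
  classical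
  set τ := δ ^ 2 / 8 with hτ
  have hτ0 : 0 < τ := by positivity
  have hτ1 : τ ≤ 1 / 8 := by rw [hτ]; nlinarith
  set ρ := sqrt (3 / 52 : ℝ) with hρ_def
  have hρ0 : 0 < ρ := sqrt_pos.mpr (by norm_num)
  have hρ1 : ρ ≤ 1 := sqrt_le_one.mpr (by norm_num)
  set q := sqrt (13 : ℝ) with hq
  have hq3 : (3 : ℝ) ≤ q := le_sqrt_of_sq_le (by norm_num)
  have hq4 : q ≤ 4 := sqrt_le_iff.mpr ⟨by norm_num, by norm_num⟩
  set V := vol L with hV
  have hLr : (1 : ℝ) ≤ L := by exact_mod_cast hL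
  have hLp : (0 : ℝ) < L := by linarith
  have hsL : 0 < sqrt L := sqrt_pos.mpr hLp
  have hh0 : sqrt L ≤ τ * L := hsq.trans (by nlinarith [mul_le_mul_of_nonneg_left hρ1 hτ0.le])
  have hVpos : 0 < V := lt_of_lt_of_le (by positivity) (le_vol hL)
  set R : ℝ := (L : ℝ) with hR
  -- the main counts
  set W := V * (ρ * (1 - τ) * R) ^ L with hW
  have hρτ : 0 ≤ ρ * (1 - τ) := by nlinarith
  have hW4 : 4 ≤ W := by
    calc (4 : ℝ) ≤ sqrt L * ρ * (1 - τ) := hbig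
      _ ≤ (sqrt L * ρ * (1 - τ)) ^ L := le_self_pow₀ (by linarith) (by omega)
      _ = (1 / sqrt L) ^ L * (ρ * (1 - τ) * R) ^ L := by
          rw [← mul_pow]; congr 1
          rw [hR, div_mul_eq_mul_div, one_mul, eq_div_iff hsL.ne']
          linear_combination ρ * (1 - τ) * Real.mul_self_sqrt hLp.le
      _ ≤ W := mul_le_mul_of_nonneg_right (le_vol hL) (pow_nonneg (by positivity) _)
  have hfib : ∀ x ∈ latBall (0 : Sp L) (q * R), ∃ U : Finset (Fin L → ℤ),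
      W / 2 ≤ (U.card : ℝ) ∧
      ∀ u ∈ U, ‖emb u‖ ≤ (1 + δ) * R ∧ ‖emb ((3 : ℤ) • u - x)‖ ≤ (1 + δ) * R ∧
        ‖emb ((4 : ℤ) • u - x)‖ ≤ (1 + δ) * R := fibres hδ hδ1 hsq hgap
  choose! U hU hU' using hfib
  set K := ⌈W / 4⌉₊ with hK
  have hK1 : W / 4 ≤ (K : ℝ) := Nat.le_ceil _
  have hK2 : (K : ℝ) ≤ W / 2 := by
    have : (K : ℝ) < W / 4 + 1 := Nat.ceil_lt_add_one (by positivity)
    linarith
  have hK0 : 0 < K := Nat.ceil_pos.mpr (by positivity)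
  set XL := latBall (0 : Sp L) (q * R) with hXL
  have hKU : ∀ x ∈ XL, ∃ U' ⊆ U x, U'.card = K := fun x hx =>
    Finset.exists_subset_card_eq (by exact_mod_cast hK2.trans (hU x hx))
  choose! U1 hU1 hU1c using hKU
  set T : (Fin L → ℤ) → Finset (Fin L → ℤ) :=
    fun x => (U1 x).image (fun u => x - (2 : ℤ) • u) with hT
  have hTc : ∀ x ∈ XL, (T x).card = K := fun x hx => by
    rw [hT, Finset.card_image_of_injective _ (fun a b h => ?_), hU1c x hx]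
    funext i
    have := congrFun h i
    simpa using this
  set B := latBall (0 : Sp L) ((1 + δ) * R) with hB
  set AL : Fin 3 → Finset (Fin L → ℤ) :=
    ![B.image (fun u => (2 : ℤ) • u), B, B.image (fun u => (2 : ℤ) • u)] with hAL
  have hAc : ∀ j, (AL j).card ≤ B.card := by
    intro j; fin_cases j
    · exact Finset.card_image_le
    · exact le_refl _
    · exact Finset.card_image_le
  -- sizes
  have hXlow : V * (q * (1 - τ) * R) ^ L ≤ (XL.card : ℝ) := by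
    refine le_trans ?_ (le_card_latBall (0 : Sp L) (r := q * R) (by nlinarith))
    rw [mul_comm V]
    apply mul_le_mul_of_nonneg_right (pow_le_pow_left₀
      (mul_nonneg (mul_nonneg (by linarith) (by linarith)) hLp.le) ?_ L) hVpos.le
    have : 0 ≤ (q - 1) * (τ * L) := mul_nonneg (by linarith) (by positivity)
    rw [hR]; linarith
  have hXup : (XL.card : ℝ) ≤ V * (q * (1 + τ) * R) ^ L := by
    refine le_trans (card_latBall_le (0 : Sp L) (r := q * R) (by positivity)) ?_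
    rw [mul_comm V]
    apply mul_le_mul_of_nonneg_right (pow_le_pow_left₀ (by positivity) ?_ L) hVpos.le
    have : 0 ≤ (q - 1) * (τ * L) := mul_nonneg (by linarith) (by positivity)
    rw [hR]; linarith
  have hBup : (B.card : ℝ) ≤ V * ((1 + 2 * δ) * R) ^ L := by
    refine le_trans (card_latBall_le (0 : Sp L) (r := (1 + δ) * R) (by positivity)) ?_
    rw [mul_comm V]
    apply mul_le_mul_of_nonneg_right (pow_le_pow_left₀ (by positivity) ?_ L) hVpos.le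
    have : τ * L ≤ δ * L := mul_le_mul_of_nonneg_right (by rw [hτ]; nlinarith) hLp.le
    rw [hR]; linarith
  have hKX : K ≤ XL.card := by
    have : (K : ℝ) ≤ (XL.card : ℝ) := by
      refine hK2.trans (le_trans ?_ hXlow)
      have : W ≤ V * (q * (1 - τ) * R) ^ L := by
        apply mul_le_mul_of_nonneg_left (pow_le_pow_left₀ (by positivity) ?_ L) hVpos.le
        exact mul_le_mul_of_nonneg_right
          (mul_le_mul_of_nonneg_right (by linarith) (by linarith)) hLp.le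
      linarith
    exact_mod_cast this
  have hXbig : 2 * L + 1 ≤ XL.card := line_card (by omega) (by nlinarith)
  obtain ⟨p, hp, hp6, hp12⟩ := Nat.exists_prime_lt_and_le_two_mul (6 * XL.card) (by omega)
  have : Fact p.Prime := ⟨hp⟩
  have hp8 : 8 * (L : ℝ) < p := by
    have : 8 * L < p := by omega
    exact_mod_cast this
  have hmemX : ∀ a ∈ XL, ∀ i, |(a i : ℝ)| ≤ 4 * L := fun a ha i =>
    (le_abs_coord a i).trans (by
      have := mem_latBall.mp ha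
      rw [sub_zero] at this
      exact this.trans (by rw [hR]; nlinarith))
  have hsmX : ∀ a ∈ XL, ∀ b ∈ XL, ∀ i, |a i - b i| < (p : ℤ) := by
    intro a ha b hb i
    have h : |(a i : ℝ) - b i| < p := by
      have := hmemX a ha i; have := hmemX b hb i
      have := abs_sub (a i : ℝ) (b i : ℝ)
      linarith
    exact_mod_cast h
  have hsmT : ∀ x ∈ XL, ∀ a ∈ T x, ∀ b ∈ T x, ∀ i, |a i - b i| < (p : ℤ) := by
    intro x hx a ha b hb i
    obtain ⟨u, hu, rfl⟩ := Finset.mem_image.mp ha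
    obtain ⟨v, hv, rfl⟩ := Finset.mem_image.mp hb
    have hu' := (le_abs_coord u i).trans (hU' x hx u (hU1 x hx hu)).1
    have hv' := (le_abs_coord v i).trans (hU' x hx v (hU1 x hx hv)).1
    have h2L : (1 + δ) * R ≤ 2 * L :=
      mul_le_mul_of_nonneg_right (by linarith) hLp.le
    exact sub_small p x u v i (hu'.trans h2L) (hv'.trans h2L) hp8
  have hinc : ∀ x ∈ XL, ∀ t ∈ T x, ∀ j : Fin 3,
      x - ((j.val + 1 : ℕ) : ℤ) • t ∈ AL j := by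
    intro x hx t ht j
    obtain ⟨u, hu, rfl⟩ := Finset.mem_image.mp ht
    obtain ⟨h1, h2, h3⟩ := hU' x hx u (hU1 x hx hu)
    obtain ⟨e0, e1, e2⟩ := incidence x u
    have memB : ∀ w : Fin L → ℤ, ‖emb w‖ ≤ (1 + δ) * R → w ∈ B := fun w hw =>
      mem_latBall.mpr (by rw [sub_zero]; exact hw)
    match j with
    | ⟨0, _⟩ =>
      show x - ((0 + 1 : ℕ) : ℤ) • (x - (2 : ℤ) • u) ∈ _
      rw [e0]; exact Finset.mem_image.mpr ⟨u, memB u h1, rfl⟩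
    | ⟨1, _⟩ =>
      show x - ((1 + 1 : ℕ) : ℤ) • (x - (2 : ℤ) • u) ∈ _
      rw [e1]; exact memB _ h3
    | ⟨2, _⟩ =>
      show x - ((2 + 1 : ℕ) : ℤ) • (x - (2 : ℤ) • u) ∈ _
      rw [e2]; exact Finset.mem_image.mpr ⟨_, memB _ h2, rfl⟩
  obtain ⟨Xz, Az, hXz, hXz', hAz, hAz', hTz⟩ :=
    exists_int_config XL AL T K hK0 hKX hTc (by omega) hL hsmX hsmT hinc
  have hBpos : 1 ≤ B.card := by
    refine Finset.card_pos.mpr ⟨0, mem_latBall.mpr ?_⟩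
    have : emb (0 : Fin L → ℤ) = 0 := by ext i; simp
    rw [this, sub_zero, norm_zero]; positivity
  refine ⟨p, 5 * (B.card : ℝ), (K : ℝ) / 2, Xz, Az, hp.one_lt.le, ?_, by positivity, hXz',
    ?_, hAz', ?_, ?_⟩
  · have : (1 : ℝ) ≤ B.card := by exact_mod_cast hBpos
    linarith
  · intro j
    exact_mod_cast (hAz j).trans (Nat.mul_le_mul_left 5 (hAc j))
  · intro x hx
    obtain ⟨Tz, h1, h2, h3⟩ := hTz x hx
    refine ⟨Tz, ?_, h2, h3⟩
    have : (K : ℝ) ≤ 2 * (Tz.card : ℝ) := by exact_mod_cast h1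
    linarith
  · -- the rate
    have hXz2 : (XL.card : ℝ) ≤ 2 * (Xz.card : ℝ) := by exact_mod_cast hXz
    have hp' : (p : ℝ) ≤ 12 * (V * (q * (1 + τ) * R) ^ L) := by
      have : (p : ℝ) ≤ 2 * (6 * XL.card : ℕ) := by exact_mod_cast hp12
      push_cast at this
      linarith
    have hppos : (0 : ℝ) < p := by exact_mod_cast hp.pos
    exact final_ineq hs hVpos hLp hδ.le hδ1 (Nat.cast_nonneg _) hBup hXlow hXz2 hK1 hppos hp'

lemma exists_config {s : ℝ} (hs : log (676 / 3) < s * log 13) (C : ℝ) :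
    ∃ (M : ℕ) (n k : ℝ) (X : Finset ℤ) (A : Fin 3 → Finset ℤ),
      1 ≤ M ∧ 1 ≤ n ∧ 0 ≤ k ∧ X ⊆ Finset.Icc 0 (M : ℤ) ∧ (∀ j, ((A j).card : ℝ) ≤ n) ∧
      (∀ j, A j ⊆ Finset.Icc (-3 * (M : ℤ)) M) ∧
      (∀ x ∈ X, ∃ T : Finset ℤ, k ≤ (T.card : ℝ) ∧ T ⊆ Finset.Icc 0 (M : ℤ) ∧
        ∀ t ∈ T, ∀ j : Fin 3, x - ((j.val + 1 : ℕ) : ℤ) * t ∈ A j) ∧
      C * n ^ s < (X.card : ℝ) ^ s * k / M := by
  have hs0 : 0 ≤ s := by
    by_contra h
    have h1 : (0 : ℝ) < log (676 / 3) := log_pos (by norm_num)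
    have h2 : (0 : ℝ) < log 13 := log_pos (by norm_num)
    nlinarith
  obtain ⟨δ, hδ, hδ1, hrate⟩ := exists_delta hs
  have hρ0 : (0 : ℝ) < sqrt (3 / 52) := sqrt_pos.mpr (by norm_num)
  have hδ2 : δ ^ 2 ≤ 1 := pow_le_one₀ hδ.le hδ1
  have hsq : Tendsto (fun L : ℕ => sqrt (L : ℝ)) atTop atTop :=
    tendsto_sqrt_atTop.comp tendsto_natCast_atTop_atTop
  have hcoef : 0 < δ ^ 2 / 8 * sqrt (3 / 52) := by positivity
  have E1 : ∀ᶠ L : ℕ in atTop, sqrt L ≤ δ ^ 2 / 8 * sqrt (3 / 52) * L := by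
    filter_upwards [hsq.eventually_ge_atTop (1 / (δ ^ 2 / 8 * sqrt (3 / 52)))] with L hL
    rw [div_le_iff₀ hcoef] at hL
    nlinarith [mul_le_mul_of_nonneg_left hL (sqrt_nonneg (L : ℝ)),
      Real.mul_self_sqrt (Nat.cast_nonneg (α := ℝ) L)]
  have hc2 : 0 < sqrt (3 / 52) * (1 - δ ^ 2 / 8) := mul_pos hρ0 (by linarith)
  have E2 : ∀ᶠ L : ℕ in atTop, 4 ≤ sqrt L * sqrt (3 / 52) * (1 - δ ^ 2 / 8) := by
    filter_upwards [hsq.eventually_ge_atTop (4 / (sqrt (3 / 52) * (1 - δ ^ 2 / 8)))] with L hL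
    rw [div_le_iff₀ hc2] at hL
    linarith
  have E3 : ∀ᶠ L : ℕ in atTop,
      4 * (1 - 3 * (δ ^ 2 / 8)) ^ L ≤ (1 - δ ^ 2 / 8) ^ L := by
    have hb : (0 : ℝ) < 1 - δ ^ 2 / 8 := by linarith
    have ht := tendsto_pow_atTop_nhds_zero_of_lt_one
      (r := (1 - 3 * (δ ^ 2 / 8)) / (1 - δ ^ 2 / 8)) (div_nonneg (by linarith) hb.le)
      (by rw [div_lt_one hb]; nlinarith)
    filter_upwards [ht.eventually_lt_const (show (0 : ℝ) < 1 / 4 by norm_num)] with L hL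
    rw [div_pow, div_lt_iff₀ (pow_pos hb L)] at hL
    linarith
  set κ : ℝ := (1 / 2) ^ s / (96 * 5 ^ s) with hκ
  have hκ0 : 0 < κ := by positivity
  have E4 : ∀ᶠ L : ℕ in atTop, C < κ * rate s δ ^ L :=
    ((tendsto_pow_atTop_atTop_of_one_lt hrate).const_mul_atTop hκ0).eventually_gt_atTop C
  obtain ⟨L, h1, h2, h3, h4, h5⟩ :=
    (E1.and (E2.and (E3.and (E4.and (eventually_ge_atTop 1))))).exists
  obtain ⟨M, n, k, X, A, a1, a2, a3, a4, a5, a6, a7, a8⟩ := config_at hs0 hδ hδ1 h5 h1 h2 h3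
  refine ⟨M, n, k, X, A, a1, a2, a3, a4, a5, a6, a7, lt_of_lt_of_le ?_ a8⟩
  exact mul_lt_mul_of_pos_right h4 (by positivity)

end Vale.P141
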